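import Mathlib

/-!
Common subsequences of two block words whose blocks are arranged in rows and columns.
-/

set_option autoImplicit false

namespace Crest.Agent.R210

open List

theorem sublist_block {σ ι : Type*} {l : List ι} (hl : l.Nodup) (F : ι → List σ) (i0 : ι)
    {z : List σ} (hz : z <+ l.flatMap F) (h : ∀ a ∈ z, ∀ i ∈ l, a ∈ F i → i = i0) :
    z <+ F i0 := by
  induction l generalizing z with
  | nil =>
    obtain rfl : z = [] := by simpa using hz
    exact List.nil_sublist _
  | cons i l ih =>
    rw [List.flatMap_cons] at hz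
    obtain ⟨z1, z2, rfl, h1, h2⟩ := List.sublist_append_iff.1 hz
    rw [List.nodup_cons] at hl
    by_cases hi : i = i0
    · subst hi
      have : z2 = [] := by
        rw [List.eq_nil_iff_forall_not_mem]
        intro a ha
        obtain ⟨j, hj, haj⟩ := List.mem_flatMap.1 (h2.subset ha)
        have := h a (by simp [ha]) j (by simp [hj]) haj
        exact hl.1 (this ▸ hj)
      simpa [this] using h1
    · have : z1 = [] := by
        rw [List.eq_nil_iff_forall_not_mem]
        intro a ha
        exact hi (h a (by simp [ha]) i (by simp) (h1.subset ha))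
      subst this
      exact ih hl.2 h2 (fun a ha j hj => h a (by simpa using ha) j (by simp [hj]))

theorem length_eq_sum_filter {σ : Type*} (c : σ → ℕ) (k : ℕ) (z : List σ) (h : ∀ a ∈ z, c a < k) :
    z.length = ∑ j ∈ Finset.range k, (z.filter (fun a => c a = j)).length := by
  induction z with
  | nil => simp
  | cons a z ih =>
    have h1 : ∀ j, ((a :: z).filter (fun a => c a = j)).length =
        (z.filter (fun a => c a = j)).length + if c a = j then 1 else 0 := by
      intro j
      by_cases hj : c a = j <;> simp [hj]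
    simp only [h1, Finset.sum_add_distrib, List.length_cons]
    rw [← ih (fun a ha => h a (by simp [ha])), Finset.sum_ite_eq, if_pos (by simpa using h a (by simp))]

theorem length_flatMap_const {σ ι : Type*} (l : List ι) (F : ι → List σ) (L : ℕ)
    (h : ∀ i ∈ l, (F i).length = L) : (l.flatMap F).length = l.length * L := by
  induction l with
  | nil => simp
  | cons i l ih =>
    rw [List.flatMap_cons, List.length_append, h i (by simp), ih (fun j hj => h j (by simp [hj])),
      List.length_cons]
    ring

/-- the block word with every letter annotated by its block index -/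
def ann {σ : Type*} (Y : ℕ → List σ) (m : ℕ) : List (σ × ℕ) :=
  (List.range m).flatMap (fun i => (Y i).map (fun a => (a, i)))

theorem ann_fst {σ : Type*} (Y : ℕ → List σ) (m : ℕ) :
    (ann Y m).map Prod.fst = (List.range m).flatMap Y := by
  simp [ann, List.map_flatMap, Function.comp_def]

theorem mem_ann {σ : Type*} {Y : ℕ → List σ} {m : ℕ} {e : σ × ℕ} (h : e ∈ ann Y m) :
    e.2 < m ∧ e.1 ∈ Y e.2 := by
  simp only [ann, List.mem_flatMap, List.mem_range, List.mem_map] at h
  obtain ⟨i, hi, a, ha, rfl⟩ := h
  exact ⟨hi, ha⟩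

theorem ann_sorted {σ : Type*} (Y : ℕ → List σ) (m : ℕ) :
    (ann Y m).Pairwise (fun e e' => e.2 ≤ e'.2) := by
  rw [ann, List.pairwise_flatMap]
  refine ⟨fun i _ => ?_, ?_⟩
  · rw [List.pairwise_map]
    exact List.pairwise_of_forall (fun _ _ => le_rfl)
  · refine List.pairwise_lt_range.imp ?_
    intro i j hij x hx y hy
    obtain ⟨a, -, rfl⟩ := List.mem_map.1 hx
    obtain ⟨b, -, rfl⟩ := List.mem_map.1 hy
    exact hij.le

theorem ann_countP {σ : Type*} (Y : ℕ → List σ) (L : ℕ) (hL : ∀ i, (Y i).length = L) (m : ℕ)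
    (P : ℕ → Bool) : (ann Y m).countP (fun e => P e.2) = (List.range m).countP P * L := by
  unfold ann
  induction (List.range m) with
  | nil => simp
  | cons i l ih =>
    rw [List.flatMap_cons, List.countP_append, ih, List.countP_cons, List.countP_map]
    by_cases hi : P i <;> simp [hi, Function.comp_def, hL]
    ring

theorem countP_range_Ioo (a n m : ℕ) (h : a + n ≤ m) :
    n ≤ (List.range m).countP (fun i => a ≤ i ∧ i < a + n) := by
  have h1 : List.range' a n <+ List.range m := by
    obtain ⟨c, rfl⟩ := Nat.exists_eq_add_of_le h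
    rw [List.range_eq_range', show a + n + c = a + (n + c) by ring, ← List.range'_append_1,
      ← List.range'_append_1, Nat.zero_add]
    exact (List.sublist_append_left _ _).trans (List.sublist_append_right _ _)
  refine le_trans ?_ (h1.countP_le)
  rw [List.countP_eq_length.2]
  · simp
  · intro i hi
    simpa using List.mem_range'_1.1 hi

theorem row_lemma {σ : Type*} (k L e m : ℕ) (hk : 2 ≤ k) (he : e ≤ L) (X Y : ℕ → List σ)
    (c : σ → ℕ) (hXc : ∀ j < k, ∀ a ∈ X j, c a = j) (hYc : ∀ i, ∀ a ∈ Y i, c a = i % k)
    (hXl : ∀ i, (X i).length = L) (hYl : ∀ i, (Y i).length = L)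
    (hfar : ∀ r', r' * k < m → ∃ J ⊆ Finset.range k, k ≤ 2 * J.card ∧
      ∀ j ∈ J, ∀ z, z <+ X j → z <+ Y (r' * k + j) → z.length + e ≤ L)
    (Y1 A : List (σ × ℕ)) (hY1 : Y1 <:+: ann Y m) (hA : A <+ Y1)
    (hAX : A.map Prod.fst <+ (List.range k).flatMap X) :
    4 * A.length + k * e ≤ 2 * (k * L) + 2 * Y1.length := by
  classical
  have hAa : A <+ ann Y m := hA.trans hY1.sublist
  have hlen1 : A.length ≤ Y1.length := hA.length_le
  have hlen2 : A.length ≤ k * L := by
    have := hAX.length_le
    rwa [length_flatMap_const _ _ L (fun i _ => hXl i), List.length_map, List.length_range] at this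
  have hke : k * e ≤ k * L := Nat.mul_le_mul_left _ he
  have hcA : ∀ x ∈ A, c x.1 = x.2 % k := fun x hx => hYc _ _ (mem_ann (hAa.subset hx)).2
  by_cases hgood : ∀ x ∈ A, ∀ y ∈ A, x.2 / k = y.2 / k
  · rcases A with _ | ⟨x0, A0⟩
    · simp; omega
    set A := x0 :: A0 with hAdef
    have hx0 : x0 ∈ A := by simp [hAdef]
    set r' := x0.2 / k with hr'
    have hr'm : r' * k < m := lt_of_le_of_lt (Nat.div_mul_le_self _ _) (mem_ann (hAa.subset hx0)).1
    obtain ⟨J, hJ, hJc, hJf⟩ := hfar r' hr'm
    have hsum := length_eq_sum_filter (fun x : σ × ℕ => c x.1) k A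
      (fun x hx => by rw [hcA x hx]; exact Nat.mod_lt _ (by omega))
    have hX : ∀ j < k, (A.filter (fun x => c x.1 = j)).map Prod.fst <+ X j := by
      intro j hj
      refine sublist_block List.nodup_range X j ((List.filter_sublist.map _).trans hAX) ?_
      intro a ha i hi hai
      obtain ⟨x, hx, rfl⟩ := List.mem_map.1 ha
      have h1 : c x.1 = j := by simpa using (List.mem_filter.1 hx).2
      rw [← h1, hXc i (List.mem_range.1 hi) _ hai]
    have hY : ∀ j < k, (A.filter (fun x => c x.1 = j)).map Prod.fst <+ Y (r' * k + j) := by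
      intro j hj
      have h1 : A.filter (fun x => c x.1 = j) <+ (Y (r' * k + j)).map (fun a => (a, r' * k + j)) := by
        refine sublist_block List.nodup_range (fun i => (Y i).map (fun a => (a, i))) (r' * k + j)
          (List.filter_sublist.trans hAa) ?_
        intro x hx i _ hxi
        obtain ⟨a, -, rfl⟩ := List.mem_map.1 hxi
        have h1 : c a = j := by simpa using (List.mem_filter.1 hx).2
        have h2 := hcA _ (List.mem_filter.1 hx).1
        have h3 := hgood _ (List.mem_filter.1 hx).1 _ hx0
        simp only at h2 h3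
        rw [hr', ← h3, ← h1, h2, Nat.div_add_mod']
      simpa [Function.comp_def] using h1.map Prod.fst
    have hb : ∀ j ∈ Finset.range k, (A.filter (fun x => c x.1 = j)).length +
        (if j ∈ J then e else 0) ≤ L := by
      intro j hj
      have hj' := Finset.mem_range.1 hj
      split_ifs with hjJ
      · simpa using hJf j hjJ _ (hX j hj') (hY j hj')
      · simpa [hXl] using (hX j hj').length_le
    have h2 := Finset.sum_le_sum hb
    rw [Finset.sum_add_distrib, ← hsum, ← Finset.sum_filter, Finset.filter_mem_eq_inter,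
      Finset.inter_eq_right.2 hJ, Finset.sum_const, Finset.sum_const, Finset.card_range,
      smul_eq_mul, smul_eq_mul] at h2
    have h3 : k * e ≤ 2 * J.card * e := Nat.mul_le_mul_right _ hJc
    nlinarith
  · -- two rows are used
    have hmono : ∀ x ∈ A, ∀ y ∈ A, x.2 < y.2 → x.2 % k ≤ y.2 % k := by
      have s1 : A.Pairwise (fun x y => x.2 ≤ y.2) := (ann_sorted Y m).sublist hAa
      have s2 : A.Pairwise (fun x y => c x.1 ≤ c y.1) := by
        have : ((List.range k).flatMap X).Pairwise (fun a b => c a ≤ c b) := by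
          rw [List.pairwise_flatMap]
          refine ⟨fun i hi => List.pairwise_of_forall_mem_list (fun a ha b hb => ?_), ?_⟩
          · rw [hXc i (List.mem_range.1 hi) a ha, hXc i (List.mem_range.1 hi) b hb]
          · refine List.pairwise_lt_range.imp_of_mem ?_
            intro i j hi hj hij a ha b hb
            rw [hXc i (List.mem_range.1 hi) a ha, hXc j (List.mem_range.1 hj) b hb]
            exact hij.le
        simpa [List.pairwise_map] using this.sublist hAX
      intro x hx y hy hxy
      rw [← hcA x hx, ← hcA y hy]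
      refine List.Pairwise.forall_of_forall_of_flip
        (R := fun x y : σ × ℕ => x.2 < y.2 → c x.1 ≤ c y.1) (fun _ _ _ => le_rfl)
        (s2.imp ?_) (s1.imp ?_) hx hy hxy
      · exact fun h _ => h
      · exact fun h h' => absurd h (not_le.2 h')
    obtain ⟨x, hx, y, hy, hxy⟩ : ∃ x ∈ A, ∃ y ∈ A, x.2 / k < y.2 / k := by
      push Not at hgood
      obtain ⟨x, hx, y, hy, hxy⟩ := hgood
      rcases lt_or_gt_of_ne hxy with h | h
      · exact ⟨x, hx, y, hy, h⟩
      · exact ⟨y, hy, x, hx, h⟩
    obtain ⟨x1, hx1, hmax⟩ := (A.toFinset.filter (fun w => w.2 / k < y.2 / k)).exists_max_image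
      (fun w => w.2) ⟨x, by simp [hx, hxy]⟩
    simp only [Finset.mem_filter, List.mem_toFinset] at hx1 hmax
    have hgap : ∀ w ∈ A, x1.2 < w.2 → x1.2 + k ≤ w.2 := by
      intro w hw h
      have h1 : ¬ w.2 / k < y.2 / k := fun h' => absurd (hmax w ⟨hw, h'⟩) (by omega)
      have h2 := hmono x1 hx1.1 w hw h
      have h3 : x1.2 / k + 1 ≤ w.2 / k := by omega
      have h4 := Nat.mul_le_mul_left k h3
      have h5 := Nat.div_add_mod x1.2 k
      have h6 := Nat.div_add_mod w.2 k
      rw [Nat.mul_add] at h4
      omega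
    have hy1 : x1.2 + k ≤ y.2 := hgap y hy (by
      by_contra h
      exact absurd (Nat.div_le_div_right (c := k) (not_lt.1 h)) (by omega))
    have hym := (mem_ann (hAa.subset hy)).1
    set P : ℕ → Bool := fun i => x1.2 + 1 ≤ i ∧ i < x1.2 + 1 + (k - 1) with hP
    have hc1 : (k - 1) * L ≤ (ann Y m).countP (fun e => P e.2) := by
      rw [ann_countP Y L hYl]
      exact Nat.mul_le_mul_right _ (countP_range_Ioo _ _ _ (by omega))
    obtain ⟨S, T, hST⟩ := hY1
    have hs := ann_sorted Y m
    rw [← hST] at hs hc1
    rw [List.pairwise_append, List.pairwise_append] at hs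
    have hS : S.countP (fun e => P e.2) = 0 := by
      rw [List.countP_eq_zero]
      intro w hw
      have := hs.1.2.2 w hw x1 (hA.subset hx1.1)
      simp [hP]; omega
    have hT : T.countP (fun e => P e.2) = 0 := by
      rw [List.countP_eq_zero]
      intro w hw
      have := hs.2.2 y (by simp [hA.subset hy]) w hw
      simp [hP]; omega
    rw [List.countP_append, List.countP_append, hS, hT] at hc1
    have hc2 : A.length ≤ Y1.countP (fun e => ¬ P e.2) := by
      refine le_trans ?_ hA.countP_le
      rw [List.countP_eq_length.2]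
      intro w hw
      have := hgap w hw
      simp [hP]; omega
    have hc3 := List.length_eq_countP_add_countP (fun e : σ × ℕ => P e.2) (l := Y1)
    obtain ⟨k', rfl⟩ := Nat.exists_eq_add_of_le hk
    have : 2 + k' - 1 = k' + 1 := by omega
    rw [this] at hc1
    nlinarith

theorem far_step {σ : Type*} (k b L e : ℕ) (hk : 2 ≤ k) (he : e ≤ L) (X Y : ℕ → List σ)
    (c : σ → ℕ) (hXc : ∀ i, ∀ a ∈ X i, c a = i % k) (hYc : ∀ i, ∀ a ∈ Y i, c a = i % k)
    (hXl : ∀ i, (X i).length = L) (hYl : ∀ i, (Y i).length = L)
    (hfar : ∀ r < b, ∀ r' < b, ∃ J ⊆ Finset.range k, k ≤ 2 * J.card ∧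
      ∀ j ∈ J, ∀ z, z <+ X (r * k + j) → z <+ Y (r' * k + j) → z.length + e ≤ L)
    (z : List σ) (hzX : z <+ (List.range (b * k)).flatMap X)
    (hzY : z <+ (List.range (b * k)).flatMap Y) :
    4 * z.length + b * k * e ≤ 4 * (b * k * L) := by
  have key : ∀ n ≤ b, ∀ Y1 A : List (σ × ℕ), Y1 <:+: ann Y (b * k) → A <+ Y1 →
      A.map Prod.fst <+ (List.range (n * k)).flatMap X →
      4 * A.length + n * k * e ≤ 2 * (n * k * L) + 2 * Y1.length := by
    intro n
    induction n with
    | zero =>
      intro _ Y1 A _ _ h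
      obtain rfl : A = [] := by simpa using h
      simp
    | succ n ih =>
      intro hn Y1 A hY1 hA hAX
      rw [Nat.add_mul, one_mul, List.range_add, List.flatMap_append, List.flatMap_map] at hAX
      obtain ⟨z1, z2, hz, h1, h2⟩ := List.sublist_append_iff.1 hAX
      obtain ⟨A1, A2, rfl, rfl, rfl⟩ := List.map_eq_append_iff.1 hz
      obtain ⟨S, T, rfl, hS, hT⟩ := List.append_sublist_iff.1 hA
      have i1 := ih (by omega) S A1 ((List.prefix_append S T).isInfix.trans hY1) hS h1
      have i2 := row_lemma k L e (b * k) hk he (fun j => X (n * k + j)) Y c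
        (fun j hj a ha => by rw [hXc _ a ha, Nat.mul_add_mod_of_lt hj]) hYc
        (fun i => hXl _) hYl
        (fun r' hr' => hfar n (by omega) r' (lt_of_mul_lt_mul_right hr' (Nat.zero_le _)))
        T A2 ((List.suffix_append S T).isInfix.trans hY1) hT h2
      simp only [List.length_append]
      nlinarith
  rw [← ann_fst] at hzY
  obtain ⟨A, hA, rfl⟩ := List.sublist_map_iff.1 hzY
  have h1 := key b le_rfl _ A (List.infix_refl _) hA hzX
  have h2 : (ann Y (b * k)).length = b * k * L := by
    rw [← List.length_map Prod.fst, ann_fst, length_flatMap_const _ _ L (fun i _ => hYl i),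
      List.length_range]
  rw [List.length_map]
  omega

end Crest.Agent.R210
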