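import Mathlib

/-!
A Poincaré inequality on a finite abelian group, from characters to `ℓ¹`.
-/

set_option autoImplicit false

namespace Crest.Agent.R210

open Finset ComplexConjugate

variable {G : Type*} [AddCommGroup G] [Fintype G] [DecidableEq G]

theorem parseval (F : G → ℂ) :
    ∑ χ : AddChar G ℂ, ‖∑ u, F u * χ u‖ ^ 2 = Fintype.card G * ∑ u, ‖F u‖ ^ 2 := by
  have h : ∀ z : ℂ, ((‖z‖ ^ 2 : ℝ) : ℂ) = z * conj z := fun z => by
    rw [Complex.mul_conj, Complex.normSq_eq_norm_sq]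
  apply Complex.ofReal_injective
  push_cast [-Complex.ofReal_pow]
  simp only [h, map_sum, map_mul, Finset.sum_mul_sum]
  rw [Finset.sum_comm, Finset.mul_sum]
  refine Finset.sum_congr rfl (fun u _ => ?_)
  rw [Finset.sum_comm]
  have e : ∀ v, ∑ χ : AddChar G ℂ, F u * χ u * (conj (F v) * conj (χ v)) =
      F u * conj (F v) * (if u - v = 0 then (Fintype.card G : ℂ) else 0) := by
    intro v
    rw [← AddChar.sum_apply_eq_ite, Finset.mul_sum]
    refine Finset.sum_congr rfl (fun χ _ => ?_)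
    rw [sub_eq_add_neg, AddChar.map_add_eq_mul, AddChar.map_neg_eq_conj]
    ring
  simp only [e, sub_eq_zero, mul_ite, mul_zero, Finset.sum_ite_eq, Finset.mem_univ, if_true]
  ring

theorem energy_eq (f : G → ℝ) (g : G) :
    Fintype.card G * ∑ u, (f (u + g) - f u) ^ 2 =
      ∑ χ : AddChar G ℂ, ‖∑ u, (f u : ℂ) * χ u‖ ^ 2 * ‖1 - χ g‖ ^ 2 := by
  have h := parseval (fun u => ((f (u + g) - f u : ℝ) : ℂ))
  simp only [Complex.norm_real, Real.norm_eq_abs, sq_abs] at h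
  rw [← h]
  refine Finset.sum_congr rfl (fun χ _ => ?_)
  rw [← mul_pow, ← norm_mul]
  have e1 : ∑ u, (f (u + g) : ℂ) * χ u * χ g = ∑ u, (f u : ℂ) * χ u := by
    rw [← Equiv.sum_comp (Equiv.addRight g) (fun u => (f u : ℂ) * χ u)]
    simp [AddChar.map_add_eq_mul, mul_assoc]
  have e2 : (∑ u, ((f (u + g) - f u : ℝ) : ℂ) * χ u) * χ g = (∑ u, (f u : ℂ) * χ u) * (1 - χ g) := by
    push_cast
    simp only [sub_mul, Finset.sum_sub_distrib]
    rw [Finset.sum_mul, e1]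
    ring
  rw [← e2, norm_mul, AddChar.norm_apply, mul_one]

theorem poincare_sq (α : G → ℝ) (g0 : G)
    (h : ∀ χ : AddChar G ℂ, ‖1 - χ g0‖ ^ 2 ≤ ∑ g, α g * ‖1 - χ g‖ ^ 2) (f : G → ℝ) :
    ∑ u, (f (u + g0) - f u) ^ 2 ≤ ∑ g, α g * ∑ u, (f (u + g) - f u) ^ 2 := by
  have hc : (0 : ℝ) < Fintype.card G := by exact_mod_cast Fintype.card_pos
  refine le_of_mul_le_mul_left ?_ hc
  rw [energy_eq, Finset.mul_sum]
  simp only [mul_left_comm (Fintype.card G : ℝ), energy_eq]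
  simp only [Finset.mul_sum]
  rw [Finset.sum_comm]
  refine Finset.sum_le_sum (fun χ _ => ?_)
  refine (mul_le_mul_of_nonneg_left (h χ) (sq_nonneg _)).trans (le_of_eq ?_)
  rw [Finset.mul_sum]
  exact Finset.sum_congr rfl (fun g _ => by ring)

theorem cut_eq (a b : ℝ) :
    (fun t : ℝ => ((if t < a then (1 : ℝ) else 0) - (if t < b then 1 else 0)) ^ 2) =
      (Set.Ico (min a b) (max a b)).indicator 1 := by
  funext t
  by_cases ha : t < a <;> by_cases hb : t < b <;>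
    simp [Set.indicator, ha, hb, not_lt.1, not_le.2]

theorem cut_integrable (a b : ℝ) : MeasureTheory.Integrable
    (fun t : ℝ => ((if t < a then (1 : ℝ) else 0) - (if t < b then 1 else 0)) ^ 2) := by
  rw [cut_eq, MeasureTheory.integrable_indicator_iff measurableSet_Ico]
  exact MeasureTheory.integrableOn_const (by simp)

theorem cut_integral (a b : ℝ) :
    ∫ t : ℝ, ((if t < a then (1 : ℝ) else 0) - (if t < b then 1 else 0)) ^ 2 = |a - b| := by
  rw [cut_eq, MeasureTheory.integral_indicator_one measurableSet_Ico, Real.volume_real_Ico,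
    max_sub_min_eq_abs, abs_sub_comm, max_eq_left (abs_nonneg _)]

theorem poincare_abs (α : G → ℝ) (g0 : G)
    (h : ∀ χ : AddChar G ℂ, ‖1 - χ g0‖ ^ 2 ≤ ∑ g, α g * ‖1 - χ g‖ ^ 2) (f : G → ℝ) :
    ∑ u, |f (u + g0) - f u| ≤ ∑ g, α g * ∑ u, |f (u + g) - f u| := by
  have e : ∀ g, ∑ u, |f (u + g) - f u| = ∫ t : ℝ, ∑ u,
      ((if t < f (u + g) then (1 : ℝ) else 0) - (if t < f u then 1 else 0)) ^ 2 := by
    intro g
    rw [MeasureTheory.integral_finsetSum _ (fun u _ => cut_integrable _ _)]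
    simp only [cut_integral]
  have i : ∀ g, MeasureTheory.Integrable (fun t : ℝ => ∑ u,
      ((if t < f (u + g) then (1 : ℝ) else 0) - (if t < f u then 1 else 0)) ^ 2) := fun g =>
    MeasureTheory.integrable_finsetSum _ (fun u _ => cut_integrable _ _)
  simp only [e, ← MeasureTheory.integral_const_mul]
  rw [← MeasureTheory.integral_finsetSum _ (fun g _ => (i g).const_mul _)]
  exact MeasureTheory.integral_mono (i g0)
    (MeasureTheory.integrable_finsetSum _ (fun g _ => (i g).const_mul _))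
    (fun t => poincare_sq α g0 h (fun u => if t < f u then 1 else 0))

theorem poincare_l1 (α : G → ℝ) (g0 : G)
    (h : ∀ χ : AddChar G ℂ, ‖1 - χ g0‖ ^ 2 ≤ ∑ g, α g * ‖1 - χ g‖ ^ 2)
    (F : G → lp (fun _ : ℕ => ℝ) 1) :
    ∑ u, ‖F (u + g0) - F u‖ ≤ ∑ g, α g * ∑ u, ‖F (u + g) - F u‖ := by
  have e : ∀ g, HasSum (fun n => ∑ u, |F (u + g) n - F u n|) (∑ u, ‖F (u + g) - F u‖) := by
    intro g
    refine hasSum_sum (fun u _ => ?_)
    simpa using lp.hasSum_norm (p := 1) (by simp) (F (u + g) - F u)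
  exact hasSum_le (fun n => poincare_abs α g0 h (fun u => F u n)) (e g0)
    (hasSum_sum (fun g _ => (e g).mul_left (α g)))

theorem poincare_lin (Λ : (G → ℝ) →ₗ[ℝ] ℝ) (g0 : G)
    (h : ∀ χ : AddChar G ℂ, ‖1 - χ g0‖ ^ 2 ≤ Λ (fun g => ‖1 - χ g‖ ^ 2))
    (F : G → lp (fun _ : ℕ => ℝ) 1) :
    ∑ u, ‖F (u + g0) - F u‖ ≤ Λ (fun g => ∑ u, ‖F (u + g) - F u‖) := by
  have e : ∀ φ, Λ φ = ∑ g, Λ (fun j => if g = j then 1 else 0) * φ g := fun φ => by
    rw [LinearMap.pi_apply_eq_sum_univ]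
    simp [mul_comm]
  rw [e]
  exact poincare_l1 _ g0 (fun χ => by rw [← e]; exact h χ) F

theorem one_le_mul_norm_one_sub {ω : ℂ} {n : ℕ} (hn : ω ^ n = 1) (h0 : n ≠ 0) (h1 : ω ≠ 1) :
    1 ≤ n * ‖1 - ω‖ := by
  have hω : ‖ω‖ = 1 := Complex.norm_eq_one_of_pow_eq_one hn h0
  have hs : ∑ i ∈ range n, ω ^ i = 0 := by
    have := mul_geom_sum ω n
    rw [hn, sub_self] at this
    exact (mul_eq_zero.1 this).resolve_left (sub_ne_zero.2 h1)
  have hb : ∀ i : ℕ, ‖1 - ω ^ i‖ ≤ i * ‖1 - ω‖ := by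
    intro i
    induction i with
    | zero => simp
    | succ i ih =>
      have : 1 - ω ^ (i + 1) = (1 - ω ^ i) + ω ^ i * (1 - ω) := by ring
      rw [this]
      refine (norm_add_le _ _).trans ?_
      rw [norm_mul, norm_pow, hω, one_pow]
      push_cast
      linarith
  have h2 : (n : ℂ) = ∑ i ∈ range n, (1 - ω ^ i) := by
    rw [Finset.sum_sub_distrib, hs]; simp
  have h3 : (n : ℝ) ≤ ∑ i ∈ range n, (n : ℝ) * ‖1 - ω‖ := by
    calc (n : ℝ) = ‖(n : ℂ)‖ := by simp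
      _ ≤ ∑ i ∈ range n, ‖1 - ω ^ i‖ := by rw [h2]; exact norm_sum_le _ _
      _ ≤ _ := Finset.sum_le_sum (fun i hi => (hb i).trans (by
          gcongr; exact_mod_cast (Finset.mem_range.1 hi).le))
  rw [Finset.sum_const, Finset.card_range, nsmul_eq_mul] at h3
  have : (0 : ℝ) < n := by positivity
  nlinarith

theorem sum_norm_one_sub_pow {ω : ℂ} {n : ℕ} (hn : ω ^ n = 1) (h0 : n ≠ 0) (h1 : ω ≠ 1) :
    ∑ i ∈ range n, ‖1 - ω ^ i‖ ^ 2 = 2 * n := by
  have hω : ‖ω‖ = 1 := Complex.norm_eq_one_of_pow_eq_one hn h0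
  have hs : ∑ i ∈ range n, ω ^ i = 0 := by
    have := mul_geom_sum ω n
    rw [hn, sub_self] at this
    exact (mul_eq_zero.1 this).resolve_left (sub_ne_zero.2 h1)
  have e : ∀ i : ℕ, ‖1 - ω ^ i‖ ^ 2 = 2 - 2 * (ω ^ i).re := by
    intro i
    have : ‖ω ^ i‖ ^ 2 = 1 := by rw [norm_pow, hω]; simp
    rw [← Complex.normSq_eq_norm_sq, Complex.normSq_apply] at this ⊢
    simp only [Complex.sub_re, Complex.one_re, Complex.sub_im, Complex.one_im]
    nlinarith
  simp only [e]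
  rw [Finset.sum_sub_distrib, ← Finset.mul_sum, ← Complex.re_sum, hs]
  simp [mul_comm]

end Crest.Agent.R210
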