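import Crest.Agent.R210.Tree
import Crest.Agent.R210.Fourier

/-!
The group of counter offsets, the Poincaré inequality on it and the distortion bound.
-/

set_option autoImplicit false
set_option linter.unusedSectionVars false

namespace Crest.Agent.R210

open Finset Crest.GeometryTopology.EditDistance

/-- nodes of the tree -/
abbrev Nd (k h : ℕ) := {l : List (Fin k) // l.length ≤ h}

noncomputable instance (k h : ℕ) : Fintype (Nd k h) := (List.finite_length_le (Fin k) h).fintype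

variable {k : ℕ} [NeZero k] (N : List (Fin k) → ℕ) [∀ ν, NeZero (N ν)] (h : ℕ)

/-- offsets -/
abbrev Gr := (ν : Nd k h) → ZMod (N ν.1)

/-- unit offset at one node -/
def ee (ν : List (Fin k)) : Gr N h := fun μ => if μ.1 = ν then 1 else 0

/-- move of an internal node -/
def MM (p : List (Fin k)) : Gr N h := ee N h p - ∑ j, ee N h (j :: p)

/-- extension by zero -/
def ext (v : Gr N h) (ν : List (Fin k)) : ZMod (N ν) := if hν : ν.length ≤ h then v ⟨ν, hν⟩ else 0

theorem ext_add (u v : Gr N h) (ν : List (Fin k)) : ext N h (u + v) ν = ext N h u ν + ext N h v ν := by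
  unfold ext
  split_ifs <;> simp

theorem nsmul_ee (ν : List (Fin k)) : N ν • ee N h ν = 0 := by
  funext μ
  simp only [ee, Pi.smul_apply, Pi.zero_apply]
  split_ifs with hμ
  · subst hμ; simp
  · simp

/-- the energy functional of a subtree -/
noncomputable def Lam (ρ : ℝ) : ℕ → List (Fin k) → ((Gr N h → ℝ) →ₗ[ℝ] ℝ)
  | 0, p => (N p : ℝ)⁻¹ • ∑ a ∈ range (N p), LinearMap.proj (a • ee N h p)
  | ℓ + 1, p => ρ • LinearMap.proj (MM N h p) + ∑ j, Lam ρ ℓ (j :: p)

theorem Lam_zero (ρ : ℝ) (p : List (Fin k)) (φ : Gr N h → ℝ) :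
    Lam N h ρ 0 p φ = (N p : ℝ)⁻¹ * ∑ a ∈ range (N p), φ (a • ee N h p) := by
  simp [Lam, -nsmul_eq_mul]

theorem Lam_succ (ρ : ℝ) (ℓ : ℕ) (p : List (Fin k)) (φ : Gr N h → ℝ) :
    Lam N h ρ (ℓ + 1) p φ = ρ * φ (MM N h p) + ∑ j, Lam N h ρ ℓ (j :: p) φ := by
  simp [Lam]

theorem Lam_nonneg {ρ : ℝ} (hρ : 0 ≤ ρ) {φ : Gr N h → ℝ} (hφ : ∀ g, 0 ≤ φ g) (ℓ : ℕ)
    (p : List (Fin k)) : 0 ≤ Lam N h ρ ℓ p φ := by
  induction ℓ generalizing p with
  | zero =>
    rw [Lam_zero]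
    exact mul_nonneg (by positivity) (Finset.sum_nonneg (fun _ _ => hφ _))
  | succ ℓ ih =>
    rw [Lam_succ]
    exact add_nonneg (mul_nonneg hρ (hφ _)) (Finset.sum_nonneg (fun _ _ => ih _))

theorem addChar_sum_eq_one {G ι : Type*} [AddCommGroup G] (χ : AddChar G ℂ) (s : Finset ι)
    (x : ι → G) (hx : ∀ i ∈ s, χ (x i) = 1) : χ (∑ i ∈ s, x i) = 1 :=
  Finset.sum_induction x (fun y => χ y = 1)
    (fun a b ha hb => by rw [AddChar.map_add_eq_mul, ha, hb, one_mul]) (by simp) hx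

theorem spectral {Nmax t : ℕ} (hN : ∀ ν, N ν ≤ Nmax)
    (hcop : ∀ p j, Nat.Coprime (N p) (N (j :: p))) (ht : 1 ≤ t) {ρ : ℝ}
    (hρ : 2 * (t : ℝ) ^ h * ((Nmax : ℝ) ^ t) ^ 2 ≤ ρ) (χ : AddChar (Gr N h) ℂ) (ℓ : ℕ) (hℓ : ℓ ≤ h)
    (p : List (Fin k)) (hp : χ (ee N h p) ≠ 1) :
    2 * (t : ℝ) ^ ℓ ≤ Lam N h ρ ℓ p (fun g => ‖1 - χ g‖ ^ 2) := by
  classical
  have hρ0 : 0 ≤ ρ := le_trans (by positivity) hρ
  have hz : ∀ ν, χ (ee N h ν) ^ N ν = 1 := fun ν => by
    rw [← AddChar.map_nsmul_eq_pow, nsmul_ee, AddChar.map_zero_eq_one]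
  have hnn := Lam_nonneg N h hρ0 (φ := fun g => ‖1 - χ g‖ ^ 2) (fun _ => sq_nonneg _)
  induction ℓ generalizing p with
  | zero =>
    rw [Lam_zero]
    simp only [AddChar.map_nsmul_eq_pow]
    rw [sum_norm_one_sub_pow (hz p) (NeZero.ne _) hp]
    have : (N p : ℝ) ≠ 0 := by exact_mod_cast NeZero.ne _
    field_simp
    simp
  | succ ℓ ih =>
    rw [Lam_succ]
    set J : Finset (Fin k) := Finset.univ.filter (fun j => χ (ee N h (j :: p)) ≠ 1) with hJ
    by_cases hc : t ≤ J.card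
    · have h1 : ∑ j ∈ J, 2 * (t : ℝ) ^ ℓ ≤
          ∑ j, Lam N h ρ ℓ (j :: p) (fun g => ‖1 - χ g‖ ^ 2) :=
        (Finset.sum_le_sum (fun j hj => ih (by omega) _ (Finset.mem_filter.1 hj).2)).trans
          (Finset.sum_le_sum_of_subset_of_nonneg (Finset.subset_univ _) (fun j _ _ => hnn _ _))
      rw [Finset.sum_const, nsmul_eq_mul] at h1
      have h2 : (t : ℝ) ≤ J.card := by exact_mod_cast hc
      have h3 : 0 ≤ ρ * ‖1 - χ (MM N h p)‖ ^ 2 := by positivity
      have h4 : (t : ℝ) * (2 * t ^ ℓ) ≤ J.card * (2 * t ^ ℓ) := by gcongr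
      rw [pow_succ]
      linarith
    · set P := ∏ j ∈ J, N (j :: p) with hP
      have hP0 : P ≠ 0 := Finset.prod_ne_zero_iff.2 (fun j _ => NeZero.ne _)
      have h1 : χ (∑ j, ee N h (j :: p)) ^ P = 1 := by
        rw [← AddChar.map_nsmul_eq_pow, Finset.smul_sum]
        refine addChar_sum_eq_one χ _ _ (fun j _ => ?_)
        rw [AddChar.map_nsmul_eq_pow]
        by_cases hj : j ∈ J
        · obtain ⟨c, hc⟩ := Finset.dvd_prod_of_mem (fun j => N (j :: p)) hj
          rw [hP, hc, pow_mul, hz, one_pow]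
        · have : χ (ee N h (j :: p)) = 1 := by simpa [hJ] using hj
          rw [this, one_pow]
      have h2 : χ (MM N h p) ^ P = χ (ee N h p) ^ P := by
        have : ee N h p = MM N h p + ∑ j, ee N h (j :: p) := by simp [MM]
        rw [this, AddChar.map_add_eq_mul, mul_pow, h1, mul_one]
      have h3 : χ (MM N h p) ^ (P * N p) = 1 := by
        rw [pow_mul, h2, ← pow_mul, mul_comm, pow_mul, hz, one_pow]
      have h4 : χ (MM N h p) ≠ 1 := by
        intro h
        rw [h, one_pow] at h2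
        have hco : Nat.Coprime (N p) P := Nat.Coprime.prod_right (fun j _ => hcop p j)
        exact hp ((pow_eq_one_iff_of_coprime hco).1 ⟨hz p, h2.symm⟩)
      have h5 := one_le_mul_norm_one_sub h3 (mul_ne_zero hP0 (NeZero.ne _)) h4
      have h6 : P * N p ≤ Nmax ^ t := by
        have a1 : P ≤ Nmax ^ J.card := Finset.prod_le_pow_card _ _ _ (fun j _ => hN _)
        have a2 : 1 ≤ Nmax := le_trans (Nat.pos_of_ne_zero (NeZero.ne _)) (hN p)
        calc P * N p ≤ Nmax ^ J.card * Nmax := Nat.mul_le_mul a1 (hN p)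
          _ = Nmax ^ (J.card + 1) := (pow_succ _ _).symm
          _ ≤ Nmax ^ t := Nat.pow_le_pow_right a2 (by omega)
      have h7 : 1 ≤ (Nmax : ℝ) ^ t * ‖1 - χ (MM N h p)‖ :=
        h5.trans (by gcongr; exact_mod_cast h6)
      have h8 : 1 ≤ ((Nmax : ℝ) ^ t) ^ 2 * ‖1 - χ (MM N h p)‖ ^ 2 := by
        rw [← mul_pow]; exact one_le_pow₀ h7
      have h9 : (t : ℝ) ^ (ℓ + 1) ≤ t ^ h := pow_le_pow_right₀ (by exact_mod_cast ht) hℓ
      have h10 : 0 ≤ ∑ j, Lam N h ρ ℓ (j :: p) (fun g => ‖1 - χ g‖ ^ 2) :=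
        Finset.sum_nonneg (fun _ _ => hnn _ _)
      have h11 : 2 * (t : ℝ) ^ h * 1 ≤ 2 * (t : ℝ) ^ h *
          (((Nmax : ℝ) ^ t) ^ 2 * ‖1 - χ (MM N h p)‖ ^ 2) := by gcongr
      have h12 : 2 * (t : ℝ) ^ h * ((Nmax : ℝ) ^ t) ^ 2 * ‖1 - χ (MM N h p)‖ ^ 2 ≤
          ρ * ‖1 - χ (MM N h p)‖ ^ 2 := by gcongr
      linarith

theorem Lam_le {ρ K : ℝ} (hρ : 0 ≤ ρ) (b : ℕ) {φ : Gr N h → ℝ}
    (hleaf : ∀ ν : List (Fin k), ν.length = h → ∀ a : ℕ, φ (a • ee N h ν) ≤ K * b ^ h)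
    (hint : ∀ (ν : List (Fin k)) (ℓ : ℕ), ν.length + (ℓ + 1) = h →
      φ (MM N h ν) ≤ K * (b ^ ν.length * (k * (b * k) ^ ℓ)))
    (ℓ : ℕ) (p : List (Fin k)) (hp : p.length + ℓ = h) :
    b * Lam N h ρ ℓ p φ ≤ K * b ^ h * k ^ ℓ * (b + ℓ * ρ) := by
  induction ℓ generalizing p with
  | zero =>
    rw [Lam_zero]
    have h1 : ∑ a ∈ range (N p), φ (a • ee N h p) ≤ ∑ a ∈ range (N p), K * b ^ h :=
      Finset.sum_le_sum (fun a _ => hleaf p hp a)
    rw [Finset.sum_const, Finset.card_range, nsmul_eq_mul] at h1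
    have : (0 : ℝ) < N p := by exact_mod_cast Nat.pos_of_ne_zero (NeZero.ne _)
    have h2 : (N p : ℝ)⁻¹ * ∑ a ∈ range (N p), φ (a • ee N h p) ≤ K * b ^ h := by
      rwa [inv_mul_le_iff₀ this]
    have h3 := mul_le_mul_of_nonneg_left h2 (Nat.cast_nonneg (α := ℝ) b)
    simpa [mul_comm] using h3
  | succ ℓ ih =>
    rw [Lam_succ, mul_add, Finset.mul_sum]
    have h1 : ∑ j, b * Lam N h ρ ℓ (j :: p) φ ≤ ∑ j : Fin k, K * b ^ h * k ^ ℓ * (b + ℓ * ρ) :=
      Finset.sum_le_sum (fun j _ => ih _ (by simp; omega))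
    rw [Finset.sum_const, Finset.card_univ, Fintype.card_fin, nsmul_eq_mul] at h1
    have h2 := mul_le_mul_of_nonneg_left (hint p ℓ hp) (mul_nonneg (Nat.cast_nonneg (α := ℝ) b) hρ)
    have h3 : (b : ℝ) ^ h = b ^ p.length * b ^ ℓ * b := by rw [← hp]; ring
    rw [h3] at h1 ⊢
    push_cast
    rw [mul_pow] at h2
    rw [pow_succ]
    linarith

theorem near_leaf_move (b : ℕ) (u : Gr N h) (ν : List (Fin k)) (hν : ν.length = h) (a : ℕ) :
    Near (b ^ h) (U b (ext N h (u + a • ee N h ν)) h [] 0) (U b (ext N h u) h [] 0) := by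
  have := near_global b (off := ext N h (u + a • ee N h ν)) (off' := ext N h u) (μ := ν) ?_
    (near_leaf b _ _ ν) h [] (List.nil_suffix) (by simpa using hν) 0
  · simpa using this
  intro μ hμ
  have : μ ≠ ν := by rintro rfl; exact hμ (List.suffix_refl _)
  unfold ext
  split_ifs <;> simp [ee, this]

theorem near_int_move {b : ℕ} (hb : 0 < b) (u : Gr N h) (ν : List (Fin k)) (ℓ : ℕ)
    (hν : ν.length + (ℓ + 1) = h) :
    Near (b ^ ν.length * (k * (b * k) ^ ℓ)) (U b (ext N h (u + MM N h ν)) h [] 0)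
      (U b (ext N h u) h [] 0) := by
  have key : ∀ μ : List (Fin k), μ ≠ ν → (∀ j, μ ≠ j :: ν) →
      ext N h u μ = ext N h (u + MM N h ν) μ := by
    intro μ h1 h2
    unfold ext
    split_ifs <;> simp [MM, ee, h1, h2, Finset.sum_apply]
  have := near_global b (off := ext N h u) (off' := ext N h (u + MM N h ν)) (μ := ν) ?_
    (near_move b hb ?_ ?_ ?_ ℓ) ν.length [] (List.nil_suffix) (by simp) 0
  · rw [Nat.add_comm, hν] at this
    exact this.symm
  · intro μ hμ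
    refine key μ ?_ ?_
    · rintro rfl; exact hμ (List.suffix_refl _)
    · rintro j rfl; exact hμ (List.suffix_cons _ _)
  · have h1 : ν.length ≤ h := by omega
    have h2 : ∀ j : Fin k, ν ≠ j :: ν := fun j h => by simpa using congrArg List.length h
    simp [ext, h1, MM, ee, Finset.sum_apply, h2]
  · intro j
    have h1 : ν.length + 1 ≤ h := by omega
    have h2 : j :: ν ≠ ν := fun h => by simpa using congrArg List.length h
    simp [ext, h1, MM, ee, Finset.sum_apply, h2]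
  · intro j μ h1 h2
    have h3 : ν.length + 1 < μ.length := by
      have := h1.length_le
      rcases lt_or_eq_of_le this with h | h
      · simpa using h
      · exact absurd (h1.eq_of_length h).symm h2
    refine key μ ?_ ?_
    · rintro rfl; omega
    · rintro j rfl; simp at h3

theorem core {b t q Nmax w : ℕ} (hk : 2 ≤ k) (hb : 0 < b) (hq : b * k = 4 * q)
    (hκ : ∀ (p : List (Fin k)) (x y : ℕ), x ≠ y → x < N p * b → y < N p * b →
      ∃ J ⊆ Finset.range k, k ≤ 2 * J.card ∧ ∀ j ∈ J, (x : ZMod (N (col k j :: p))) ≠ y)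
    (hN : ∀ ν, N ν ≤ Nmax) (hcop : ∀ p j, Nat.Coprime (N p) (N (j :: p))) (ht : 1 ≤ t)
    (hroot : 1 < N []) (hρ : h * (2 * t ^ h * (Nmax ^ t) ^ 2) ≤ b)
    (c : List (Fin k) × ℕ → List Bool) (hcl : ∀ a, (c a).length = w)
    (hci : ∀ a a' : List (Fin k) × ℕ, a.1.length = h → a.2 < Nmax → a'.1.length = h →
      a'.2 < Nmax → c a = c a' → a = a')
    (f : List Bool → lp (fun _ : ℕ => ℝ) 1) (s D : ℝ) (hs : 0 < s)
    (H : ∀ x y : List Bool, x.length = (b * k) ^ h * (2 * w + 3) →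
      y.length = (b * k) ^ h * (2 * w + 3) → x ≠ y →
      s * (editDist x y : ℝ) ≤ ‖f x - f y‖ ∧ ‖f x - f y‖ ≤ D * s * (editDist x y : ℝ)) :
    (t : ℝ) ^ h ≤ 32 * (2 * w + 3) * 4 ^ h * D := by
  classical
  set W := 2 * w + 3 with hW
  have hcw : ∀ a, ((cw ∘ c) a).length = W := fun a => by simp [length_cw, hcl, hW]
  set x : Gr N h → List Bool := fun v => (U b (ext N h v) h [] 0).flatMap (cw ∘ c) with hx
  have hxl : ∀ v, (x v).length = (b * k) ^ h * W := fun v => by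
    rw [hx, length_flatMap_const _ _ W (fun a _ => hcw a), length_U]
  have hq0 : 0 < q := by
    have : 0 < b * k := Nat.mul_pos hb (by omega)
    omega
  have hfar : ∀ u, q ^ h ≤ 4 * editDist (x (u + ee N h [])) (x u) := by
    intro u
    have e : U b (ext N h (u + ee N h [])) h [] 0 = U b (ext N h u) h [] 1 := by
      refine U_congr b h (fun ν _ hν => ?_) ?_
      · unfold ext
        split_ifs <;> simp [ee, hν]
      · simp [ext, ee]
    obtain ⟨Z, h1, h2, h3⟩ := exists_common c (U b (ext N h (u + ee N h [])) h [] 0)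
      (U b (ext N h u) h [] 0) (fun a ha a' ha' => hci a a' (by simpa using (mem_U b ha).2.1)
        ((mem_U b ha).2.2.trans_le (hN _)) (by simpa using (mem_U b ha').2.1)
        ((mem_U b ha').2.2.trans_le (hN _)))
    rw [length_U] at h3
    rw [e] at h1
    have : Fact (1 < N []) := ⟨hroot⟩
    have := far_U b hk hq hκ (ext N h u) h [] 1 0 (by simp) Z h1 h2
    simp only [hx]
    omega
  have hqh : (0 : ℝ) < (q : ℝ) ^ h := by positivity
  have hne : ∀ u, x (u + ee N h []) ≠ x u := by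
    intro u hu
    have h1 := hfar u
    rw [hu, editDist, SimpleGraph.dist_self] at h1
    have : 0 < q ^ h := by positivity
    omega
  have hlow : ∀ u, s * q ^ h ≤ 4 * ‖f (x (u + ee N h [])) - f (x u)‖ := by
    intro u
    have h1 := (H _ _ (hxl _) (hxl _) (hne u)).1
    have h2 : (q : ℝ) ^ h ≤ 4 * editDist (x (u + ee N h [])) (x u) := by exact_mod_cast hfar u
    nlinarith
  have hD : 0 ≤ D := by
    have h1 := H _ _ (hxl _) (hxl _) (hne 0)
    have h2 : (q : ℝ) ^ h ≤ 4 * editDist (x (0 + ee N h [])) (x 0) := by exact_mod_cast hfar 0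
    have h3 : 0 < s * (editDist (x (0 + ee N h [])) (x 0) : ℝ) := mul_pos hs (by linarith)
    have h4 := h1.1.trans h1.2
    by_contra hD
    nlinarith
  set K : ℝ := Fintype.card (Gr N h) * (D * s * (2 * W)) with hK
  have hup : ∀ (g : Gr N h) (C : ℕ),
      (∀ u, Near C (U b (ext N h (u + g)) h [] 0) (U b (ext N h u) h [] 0)) →
      ∑ u, ‖f (x (u + g)) - f (x u)‖ ≤ K * C := by
    intro g C hC
    have h1 : ∀ u, ‖f (x (u + g)) - f (x u)‖ ≤ D * s * (2 * W) * C := by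
      intro u
      by_cases he : x (u + g) = x u
      · rw [he, sub_self, norm_zero]; positivity
      · have h2 : (editDist (x (u + g)) (x u) : ℝ) ≤ 2 * (W * C) := by
          exact_mod_cast ((hC u).enc _ hcw).editDist_le
        refine (H _ _ (hxl _) (hxl _) he).2.trans ?_
        calc _ ≤ D * s * (2 * (W * C)) := by gcongr
          _ = _ := by ring
    refine (Finset.sum_le_sum (fun u _ => h1 u)).trans (le_of_eq ?_)
    rw [Finset.sum_const, Finset.card_univ, nsmul_eq_mul, hK]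
    ring
  set ρ : ℝ := 2 * (t : ℝ) ^ h * ((Nmax : ℝ) ^ t) ^ 2 with hρdef
  have hρ0 : 0 ≤ ρ := by positivity
  have hth : (0 : ℝ) < (t : ℝ) ^ h := by positivity
  have hP := poincare_lin ((2 / (t : ℝ) ^ h) • Lam N h ρ h []) (ee N h []) (fun χ => by
    rw [LinearMap.smul_apply, smul_eq_mul]
    by_cases hχ : χ (ee N h []) = 1
    · rw [hχ, sub_self, norm_zero, zero_pow two_ne_zero]
      exact mul_nonneg (by positivity) (Lam_nonneg N h hρ0 (fun _ => sq_nonneg _) _ _)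
    · have h1 := spectral N h hN hcop ht le_rfl χ h le_rfl [] hχ
      have h2 : ‖1 - χ (ee N h [])‖ ≤ 2 := (norm_sub_le _ _).trans (by
        rw [AddChar.norm_apply, norm_one]; norm_num)
      calc _ ≤ (2 : ℝ) ^ 2 := by gcongr
        _ = 2 / (t : ℝ) ^ h * (2 * t ^ h) := by field_simp
        _ ≤ _ := by gcongr) (fun v => f (x v))
  rw [LinearMap.smul_apply, smul_eq_mul] at hP
  have hL := Lam_le N h (K := K) hρ0 b (φ := fun g => ∑ u, ‖f (x (u + g)) - f (x u)‖)
    (fun ν hν a => by exact_mod_cast hup _ _ (fun u => near_leaf_move N h b u ν hν a))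
    (fun ν ℓ hν => by exact_mod_cast hup _ _ (fun u => near_int_move N h hb u ν ℓ hν)) h []
    (by simp)
  set Λ := Lam N h ρ h [] (fun g => ∑ u, ‖f (x (u + g)) - f (x u)‖)
  have hK0 : 0 ≤ K := by positivity
  have hb' : (0 : ℝ) < b := by exact_mod_cast hb
  have h1 : Λ ≤ 2 * K * (4 ^ h * q ^ h) := by
    have a1 : h * ρ ≤ b := by rw [hρdef]; exact_mod_cast hρ
    have a2 : (b : ℝ) ^ h * k ^ h = 4 ^ h * q ^ h := by
      rw [← mul_pow, ← mul_pow]; congr 1; exact_mod_cast hq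
    refine le_of_mul_le_mul_left (hL.trans ?_) hb'
    calc _ ≤ K * b ^ h * k ^ h * (b + b) := by gcongr
      _ = _ := by rw [← a2]; ring
  have h2 : Fintype.card (Gr N h) * (s * q ^ h) ≤ 4 * ∑ u, ‖f (x (u + ee N h [])) - f (x u)‖ := by
    rw [Finset.mul_sum]
    refine le_trans (le_of_eq ?_) (Finset.sum_le_sum (fun u _ => hlow u))
    rw [Finset.sum_const, Finset.card_univ, nsmul_eq_mul]
  have hG : (0 : ℝ) < Fintype.card (Gr N h) := by exact_mod_cast Fintype.card_pos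
  have h3 : 2 / (t : ℝ) ^ h * Λ ≤ 2 / (t : ℝ) ^ h * (2 * K * (4 ^ h * q ^ h)) := by gcongr
  have h4 : Fintype.card (Gr N h) * (s * q ^ h) ≤ 4 * (2 / (t : ℝ) ^ h * (2 * K * (4 ^ h * q ^ h))) := by
    linarith
  rw [hK] at h4
  have h5 : Fintype.card (Gr N h) * (s * q ^ h) * (t : ℝ) ^ h ≤
      Fintype.card (Gr N h) * (s * q ^ h) * (32 * W * 4 ^ h * D) := by
    refine (mul_le_mul_of_nonneg_right h4 hth.le).trans (le_of_eq ?_)
    field_simp
    ring
  have := le_of_mul_le_mul_left h5 (by positivity)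
  simpa [hW] using this

end Crest.Agent.R210
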