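import Mathlib
import Crest.Prelude.Def_EditDistance

/-!
Edit distance versus common subsequences, and a self-synchronising binary code.
-/

set_option autoImplicit false

namespace Crest.Agent.R210

open Crest.GeometryTopology.EditDistance List

section Ed
variable {α : Type*}

theorem adj_insert (l r : List α) (a : α) : (editGraph α).Adj (l ++ r) (l ++ a :: r) := by
  rw [editGraph, SimpleGraph.fromRel_adj]
  refine ⟨fun h => ?_, Or.inl (Or.inl ⟨l, r, a, rfl, rfl⟩)⟩
  have := congrArg List.length h
  simp at this

theorem exists_walk_sublist {z x : List α} (h : z <+ x) (l : List α) :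
    ∃ w : (editGraph α).Walk (l ++ z) (l ++ x), w.length + z.length = x.length := by
  induction h generalizing l with
  | slnil => exact ⟨SimpleGraph.Walk.nil, rfl⟩
  | @cons z x a _ ih =>
    obtain ⟨w, hw⟩ := ih l
    exact ⟨w.concat (adj_insert l x a), by simp; omega⟩
  | @cons_cons z x a _ ih =>
    obtain ⟨w, hw⟩ := ih (l ++ [a])
    exact ⟨w.copy (by simp) (by simp), by simp; omega⟩

theorem exists_walk_common {z x y : List α} (hx : z <+ x) (hy : z <+ y) :
    ∃ w : (editGraph α).Walk x y, w.length + 2 * z.length = x.length + y.length := by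
  obtain ⟨w1, h1⟩ := exists_walk_sublist hx []
  obtain ⟨w2, h2⟩ := exists_walk_sublist hy []
  exact ⟨w1.reverse.append w2, by simp; omega⟩

theorem editDist_le {z x y : List α} (hx : z <+ x) (hy : z <+ y) :
    editDist x y + 2 * z.length ≤ x.length + y.length := by
  obtain ⟨w, hw⟩ := exists_walk_common hx hy
  have := SimpleGraph.dist_le w
  unfold editDist
  omega

/-- Two words with a long common subsequence. -/
def Near (c : ℕ) (x y : List α) : Prop :=
  ∃ z, z <+ x ∧ z <+ y ∧ x.length ≤ z.length + c ∧ y.length ≤ z.length + c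

theorem Near.refl (x : List α) : Near 0 x x := ⟨x, .refl _, .refl _, le_rfl, le_rfl⟩

theorem Near.symm {c : ℕ} {x y : List α} (h : Near c x y) : Near c y x := by
  obtain ⟨z, h1, h2, h3, h4⟩ := h
  exact ⟨z, h2, h1, h4, h3⟩

theorem Near.mono {c c' : ℕ} {x y : List α} (h : Near c x y) (hc : c ≤ c') : Near c' x y := by
  obtain ⟨z, h1, h2, h3, h4⟩ := h
  exact ⟨z, h1, h2, by omega, by omega⟩

theorem exists_inter {a b x : List α} (ha : a <+ x) (hb : b <+ x) :
    ∃ z, z <+ a ∧ z <+ b ∧ a.length + b.length ≤ z.length + x.length := by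
  induction x generalizing a b with
  | nil =>
    obtain rfl := List.sublist_nil.1 ha
    obtain rfl := List.sublist_nil.1 hb
    exact ⟨[], .refl _, .refl _, by simp⟩
  | cons c x ih =>
    rcases List.sublist_cons_iff.1 ha with ha1 | ⟨a', rfl, ha1⟩ <;>
      rcases List.sublist_cons_iff.1 hb with hb1 | ⟨b', rfl, hb1⟩
    · obtain ⟨z, h1, h2, h3⟩ := ih ha1 hb1
      exact ⟨z, h1, h2, by simp; omega⟩
    · obtain ⟨z, h1, h2, h3⟩ := ih ha1 hb1
      exact ⟨z, h1, h2.cons _, by simp; omega⟩
    · obtain ⟨z, h1, h2, h3⟩ := ih ha1 hb1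
      exact ⟨z, h1.cons _, h2, by simp; omega⟩
    · obtain ⟨z, h1, h2, h3⟩ := ih ha1 hb1
      exact ⟨c :: z, h1.cons_cons _, h2.cons_cons _, by simp; omega⟩

theorem Near.trans {c c' : ℕ} {x y w : List α} (h : Near c x y) (h' : Near c' y w) :
    Near (c + c') x w := by
  obtain ⟨z, h1, h2, h3, h4⟩ := h
  obtain ⟨z', g1, g2, g3, g4⟩ := h'
  obtain ⟨v, k1, k2, k3⟩ := exists_inter h2 g1
  exact ⟨v, k1.trans h1, k2.trans g2, by omega, by omega⟩

theorem Near.cons_same {c : ℕ} {x y : List α} (a : α) (h : Near c x y) :
    Near c (a :: x) (a :: y) := by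
  obtain ⟨z, h1, h2, h3, h4⟩ := h
  exact ⟨a :: z, h1.cons_cons _, h2.cons_cons _, by simpa [Nat.add_right_comm] using h3,
    by simpa [Nat.add_right_comm] using h4⟩

theorem Near.cons {c : ℕ} {x y : List α} (a b : α) (h : Near c x y) :
    Near (c + 1) (a :: x) (b :: y) := by
  obtain ⟨z, h1, h2, h3, h4⟩ := h
  exact ⟨z, h1.cons _, h2.cons _, by simp; omega, by simp; omega⟩

theorem Near.append {c c' : ℕ} {x y x' y' : List α} (h : Near c x y) (h' : Near c' x' y') :
    Near (c + c') (x ++ x') (y ++ y') := by
  obtain ⟨z, h1, h2, h3, h4⟩ := h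
  obtain ⟨z', g1, g2, g3, g4⟩ := h'
  exact ⟨z ++ z', h1.append g1, h2.append g2, by simp; omega, by simp; omega⟩

theorem Near.flatMap {ι : Type*} (l : List ι) {c : ι → ℕ} {X Y : ι → List α}
    (h : ∀ i ∈ l, Near (c i) (X i) (Y i)) : Near (l.map c).sum (l.flatMap X) (l.flatMap Y) := by
  induction l with
  | nil => exact Near.refl _
  | cons i l ih =>
    simpa using (h i (by simp)).append (ih (fun j hj => h j (by simp [hj])))

theorem Near.editDist_le {c : ℕ} {x y : List α} (h : Near c x y) : editDist x y ≤ 2 * c := by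
  obtain ⟨z, h1, h2, h3, h4⟩ := h
  have := R210.editDist_le h1 h2
  omega

theorem Near.enc {β : Type*} {c W : ℕ} {x y : List α} (e : α → List β) (he : ∀ a, (e a).length = W)
    (h : Near c x y) : Near (W * c) (x.flatMap e) (y.flatMap e) := by
  obtain ⟨z, h1, h2, h3, h4⟩ := h
  have hl : ∀ l : List α, (l.flatMap e).length = W * l.length := by
    intro l
    induction l with
    | nil => simp
    | cons a l ih => simp only [List.flatMap_cons, List.length_append, ih, he, List.length_cons]; ring
  refine ⟨z.flatMap e, h1.flatMap e, h2.flatMap e, ?_, ?_⟩ <;> rw [hl, hl, ← Nat.mul_add]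
  · exact Nat.mul_le_mul_left _ h3
  · exact Nat.mul_le_mul_left _ h4

end Ed

/-- Splitting a bit string in front of every occurrence of `0 0 1`. -/
def tok : List Bool → List Bool × List (List Bool)
  | [] => ([], [])
  | a :: u =>
    if (a :: u).take 3 = [false, false, true] then ([], (a :: (tok u).1) :: (tok u).2)
    else (a :: (tok u).1, (tok u).2)

theorem tok_append (l r : List Bool) :
    (tok r).2 <+ (tok (l ++ r)).2 ∧ (tok (l ++ r)).2.length ≤ (tok r).2.length + l.length := by
  induction l with
  | nil => exact ⟨.refl _, le_rfl⟩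
  | cons a l ih =>
    simp only [List.cons_append, tok]
    split_ifs
    · exact ⟨ih.1.cons _, by simp; omega⟩
    · exact ⟨ih.1, by simp; omega⟩

theorem tok_near_aux (l s s' r : List Bool) (hs : s.length ≤ 1) (hs' : s'.length ≤ 1) :
    ((tok (l ++ (s ++ r))).1 = (tok (l ++ (s' ++ r))).1 ∧
      Near 4 (tok (l ++ (s ++ r))).2 (tok (l ++ (s' ++ r))).2) ∨
    Near 3 (tok (l ++ (s ++ r))).2 (tok (l ++ (s' ++ r))).2 := by
  induction l with
  | nil =>
    right
    have h1 := tok_append s r
    have h2 := tok_append s' r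
    exact ⟨_, h1.1, h2.1, by simp only [List.nil_append]; omega, by simp only [List.nil_append]; omega⟩
  | cons a l ih =>
    by_cases hl : l.length ≤ 1
    · right
      have h1 := tok_append (a :: l ++ s) r
      have h2 := tok_append (a :: l ++ s') r
      simp only [List.append_assoc, List.length_append, List.length_cons] at h1 h2
      exact ⟨_, h1.1, h2.1, by omega, by omega⟩
    · have e : ∀ w : List Bool, (a :: (l ++ w)).take 3 = (a :: l).take 3 := by
        intro w
        rw [← List.cons_append, List.take_append_of_le_length (by simp; omega)]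
      simp only [List.cons_append, tok, e]
      split_ifs
      · left
        refine ⟨rfl, ?_⟩
        rcases ih with ⟨h1, h2⟩ | h
        · rw [h1]; exact h2.cons_same _
        · exact h.cons _ _
      · rcases ih with ⟨h1, h2⟩ | h
        · left; exact ⟨by rw [h1], h2⟩
        · right; exact h

theorem tok_near (l s s' r : List Bool) (hs : s.length ≤ 1) (hs' : s'.length ≤ 1) :
    Near 4 (tok (l ++ (s ++ r))).2 (tok (l ++ (s' ++ r))).2 := by
  rcases tok_near_aux l s s' r hs hs' with h | h
  · exact h.2
  · exact h.mono (by norm_num)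

theorem tok_adj {u v : List Bool} (h : (editGraph Bool).Adj u v) : Near 4 (tok u).2 (tok v).2 := by
  rw [editGraph, SimpleGraph.fromRel_adj] at h
  have key : ∀ u v : List Bool, IsInsertion u v ∨ IsSubstitution u v →
      Near 4 (tok u).2 (tok v).2 := by
    rintro u v (⟨l, r, a, rfl, rfl⟩ | ⟨l, r, a, b, -, rfl, rfl⟩)
    · exact tok_near l [] [a] r (by simp) (by simp)
    · exact tok_near l [a] [b] r (by simp) (by simp)
  rcases h.2 with h | h
  · exact key _ _ h
  · exact (key _ _ h).symm

theorem tok_editDist (x y : List Bool) : Near (4 * editDist x y) (tok x).2 (tok y).2 := by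
  obtain ⟨w0, -⟩ := exists_walk_common (List.nil_sublist x) (List.nil_sublist y)
  obtain ⟨w, hw⟩ := w0.reachable.exists_walk_length_eq_dist
  unfold editDist
  rw [← hw]
  clear hw w0
  induction w with
  | nil => exact Near.refl _
  | cons h w ih => exact ((tok_adj h).trans ih).mono (by simp; omega)

/-- Interleave ones. -/
def dat (d : List Bool) : List Bool := d.flatMap (fun b => [true, b])

/-- Code word. -/
def cw (d : List Bool) : List Bool := false :: false :: true :: dat d

theorem length_cw (d : List Bool) : (cw d).length = 2 * d.length + 3 := by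
  induction d with
  | nil => rfl
  | cons b d ih => simp [cw, dat] at ih ⊢; omega

theorem dat_injective : Function.Injective dat := by
  intro d d' h
  induction d generalizing d' with
  | nil => cases d' <;> simp_all [dat]
  | cons b d ih =>
    cases d' with
    | nil => simp [dat] at h
    | cons b' d' =>
      simp only [dat, List.flatMap_cons, List.cons_append, List.nil_append, List.cons.injEq,
        true_and] at h
      rw [h.1, ih h.2]

theorem cw_injective : Function.Injective cw := by
  intro d d' h
  exact dat_injective (by simpa [cw] using h)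

theorem tok_dat (d r : List Bool) (hr : r = [] ∨ ∃ r', r = false :: false :: r')
    (h0 : (tok r).1 = []) : tok (dat d ++ r) = (dat d, (tok r).2) := by
  induction d with
  | nil => exact Prod.ext h0 rfl
  | cons b d ih =>
    have e : dat (b :: d) ++ r = true :: b :: (dat d ++ r) := rfl
    have h2 : ¬ (b :: (dat d ++ r)).take 3 = [false, false, true] := by
      cases d with
      | nil => rcases hr with rfl | ⟨r', rfl⟩ <;> simp [dat]
      | cons c d => simp [dat]
    rw [e, tok, if_neg (by simp), tok, if_neg h2, ih]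
    rfl

theorem tok_enc (X : List (List Bool)) : tok (X.flatMap cw) = ([], X.map cw) := by
  induction X with
  | nil => rfl
  | cons d X ih =>
    have hr : X.flatMap cw = [] ∨ ∃ r', X.flatMap cw = false :: false :: r' := by
      cases X with
      | nil => exact Or.inl rfl
      | cons d' X => exact Or.inr ⟨_, rfl⟩
    have e : (d :: X).flatMap cw = false :: false :: true :: (dat d ++ X.flatMap cw) := rfl
    have h2 : ¬ (false :: true :: (dat d ++ X.flatMap cw)).take 3 = [false, false, true] := by simp
    rw [e, tok, if_pos (by simp), tok, if_neg h2, tok, if_neg (by simp),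
      tok_dat d _ hr (by rw [ih]), ih]
    rfl

/-- Lower bound for the edit distance of coded words. -/
theorem exists_common {σ : Type*} (c : σ → List Bool) (X Y : List σ)
    (hc : ∀ a ∈ X, ∀ b ∈ Y, c a = c b → a = b) :
    ∃ Z, Z <+ X ∧ Z <+ Y ∧
      X.length ≤ Z.length + 4 * editDist (X.flatMap (cw ∘ c)) (Y.flatMap (cw ∘ c)) := by
  have e : ∀ X : List σ, X.flatMap (cw ∘ c) = (X.map c).flatMap cw := fun X => by
    rw [List.flatMap_map]; rfl
  obtain ⟨z, h1, h2, h3, -⟩ := tok_editDist (X.flatMap (cw ∘ c)) (Y.flatMap (cw ∘ c))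
  rw [e, tok_enc, List.map_map] at h1 h2
  rw [e X, tok_enc, ← e X] at h3
  obtain ⟨Z1, a1, rfl⟩ := List.sublist_map_iff.1 h1
  obtain ⟨Z2, a2, a3⟩ := List.sublist_map_iff.1 h2
  have : Z1 = Z2 := by
    have b1 : ∀ a ∈ Z1, a ∈ X := fun a ha => a1.subset ha
    have b2 : ∀ a ∈ Z2, a ∈ Y := fun a ha => a2.subset ha
    clear a1 a2 h1 h2 h3
    induction Z1 generalizing Z2 with
    | nil => cases Z2 <;> simp_all
    | cons a Z1 ih =>
      cases Z2 with
      | nil => simp at a3
      | cons b Z2 =>
        simp only [List.map_cons, List.cons.injEq, Function.comp] at a3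
        rw [hc a (b1 a (by simp)) b (b2 b (by simp)) (cw_injective a3.1),
          ih Z2 a3.2 (fun a ha => b1 a (by simp [ha])) (fun a ha => b2 a (by simp [ha]))]
  subst this
  exact ⟨Z1, a1, a2, by simpa using h3⟩

end Crest.Agent.R210
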