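import Crest.Agent.R210.Core

/-!
Choice of the parameters.
-/

set_option autoImplicit false

namespace Crest.Agent.R210

open Finset Crest.GeometryTopology.EditDistance

theorem exists_code (k M h w : ℕ) (hk : 1 < k) (hw : M * k ^ h ≤ 2 ^ w) :
    ∃ c : List (Fin k) × ℕ → List Bool, (∀ a, (c a).length = w) ∧
      ∀ a a' : List (Fin k) × ℕ, a.1.length = h → a.2 < M → a'.1.length = h →
        a'.2 < M → c a = c a' → a = a' := by
  let num : List (Fin k) × ℕ → ℕ := fun a => a.2 + M * Nat.ofDigits k (a.1.map Fin.val)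
  have hd : ∀ l : List (Fin k), ∀ x ∈ l.map Fin.val, x < k := by
    intro l x hx
    obtain ⟨j, -, rfl⟩ := List.mem_map.1 hx
    exact j.2
  have hlt : ∀ a : List (Fin k) × ℕ, a.1.length = h → a.2 < M → num a < 2 ^ w := by
    intro a h1 h2
    have h3 := Nat.ofDigits_lt_base_pow_length hk (hd a.1)
    rw [List.length_map, h1] at h3
    have h4 : M * (Nat.ofDigits k (a.1.map Fin.val) + 1) ≤ M * k ^ h := Nat.mul_le_mul_left _ h3
    rw [Nat.mul_add] at h4
    simp only [num]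
    omega
  refine ⟨fun a => (List.range w).map (fun i => (num a).testBit i), fun a => by simp, ?_⟩
  intro a a' h1 h2 h3 h4 he
  have e : num a = num a' := by
    refine Nat.eq_of_testBit_eq (fun i => ?_)
    rcases Nat.lt_or_ge i w with hi | hi
    · exact List.map_inj_left.1 he i (List.mem_range.2 hi)
    · rw [Nat.testBit_lt_two_pow ((hlt a h1 h2).trans_le (Nat.pow_le_pow_right two_pos hi)),
        Nat.testBit_lt_two_pow ((hlt a' h3 h4).trans_le (Nat.pow_le_pow_right two_pos hi))]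
  have e2 : a.2 = a'.2 := by
    have := congrArg (· % M) e
    simp only [num, Nat.add_mul_mod_self_left] at this
    rwa [Nat.mod_eq_of_lt h2, Nat.mod_eq_of_lt h4] at this
  have e1 : Nat.ofDigits k (a.1.map Fin.val) = Nat.ofDigits k (a'.1.map Fin.val) := by
    simp only [num, e2, Nat.add_left_cancel_iff] at e
    exact Nat.eq_of_mul_eq_mul_left (by omega) e
  have e3 := Nat.ofDigits_inj_of_len_eq hk (by simp [h1, h3]) (hd _) (hd _) e1
  exact Prod.ext (List.map_injective_iff.2 Fin.val_injective e3) e2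

theorem exists_moduli (k B : ℕ) [NeZero k] (hB : 2 ^ (4 * k) * B ≤ 2 ^ (k * k)) :
    ∃ N : List (Fin k) → ℕ, (∀ ν, 1 < N ν) ∧ (∀ ν, N ν ≤ 2 ^ (4 * k)) ∧
      (∀ p j, Nat.Coprime (N p) (N (j :: p))) ∧
      ∀ (p : List (Fin k)) (x y : ℕ), x ≠ y → x < N p * B → y < N p * B →
        ∃ J ⊆ Finset.range k, k ≤ 2 * J.card ∧ ∀ j ∈ J, (x : ZMod (N (col k j :: p))) ≠ y := by
  classical
  have hk : 0 < k := Nat.pos_of_ne_zero (NeZero.ne k)
  choose P hP h1 h2 using fun i : ℕ =>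
    Nat.exists_prime_lt_and_le_two_mul (2 ^ (2 * k + i)) (by positivity)
  have hmono : StrictMono P := strictMono_nat_of_lt_succ (fun i => by
    have := h1 (i + 1)
    have := h2 i
    rw [← Nat.add_assoc, pow_succ] at *
    omega)
  have hcop : ∀ i j, i ≠ j → Nat.Coprime (P i) (P j) := fun i j hij =>
    (Nat.coprime_primes (hP i) (hP j)).2 (fun h => hij (hmono.injective h))
  let idx : List (Fin k) → ℕ := fun p => match p with
    | [] => k
    | j :: q => j + k * (q.length % 2)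
  have hidx : ∀ p, idx p < 2 * k := by
    intro p
    rcases p with _ | ⟨j, q⟩
    · simp only [idx]; omega
    · have := j.2
      rcases Nat.mod_two_eq_zero_or_one q.length with h | h <;> simp only [idx, h] <;> omega
  have hle : ∀ p, P (idx p) ≤ 2 ^ (4 * k) := fun p => (h2 _).trans (by
    rw [← pow_succ']
    exact Nat.pow_le_pow_right two_pos (by have := hidx p; omega))
  refine ⟨fun p => P (idx p), fun p => (hP _).one_lt, hle, fun p j => hcop _ _ ?_, ?_⟩
  · have := j.2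
    rcases p with _ | ⟨i, q⟩
    · simp only [idx, List.length_nil]; omega
    · have := i.2
      simp only [idx, List.length_cons]
      rcases Nat.mod_two_eq_zero_or_one q.length with h | h
      · rw [h, show (q.length + 1) % 2 = 1 by omega]; omega
      · rw [h, show (q.length + 1) % 2 = 0 by omega]; omega
  · intro p x y hxy hx hy
    refine ⟨(range k).filter (fun j => (x : ZMod (P (idx (col k j :: p)))) ≠ y), filter_subset _ _,
      ?_, fun j hj => (mem_filter.1 hj).2⟩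
    set Bd := (range k).filter (fun j => ¬ (x : ZMod (P (idx (col k j :: p)))) ≠ y) with hBd
    have hc := Finset.card_filter_add_card_filter_not (s := range k)
      (fun j => (x : ZMod (P (idx (col k j :: p)))) ≠ y)
    rw [← hBd, card_range] at hc
    have hdvd : ∏ j ∈ Bd, (P (j + k * (p.length % 2)) : ℤ) ∣ (y : ℤ) - x := by
      refine Finset.prod_dvd_of_coprime (fun i _ j _ hij => ?_) (fun j hj => ?_)
      · exact Nat.isCoprime_iff_coprime.2 (hcop _ _ (by omega))
      · obtain ⟨a1, a2⟩ := mem_filter.1 hj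
        have a3 := (ZMod.natCast_eq_natCast_iff _ _ _).1 (not_not.1 a2)
        have a4 : idx (col k j :: p) = j + k * (p.length % 2) := by
          simp only [idx, col_val, Nat.mod_eq_of_lt (mem_range.1 a1)]
        rw [a4] at a3
        exact a3.dvd
    rw [← Nat.cast_prod, Int.natCast_dvd] at hdvd
    have a1 := Nat.le_of_dvd (by omega) hdvd
    have a2 : (2 ^ (2 * k)) ^ Bd.card ≤ ∏ j ∈ Bd, P (j + k * (p.length % 2)) :=
      Finset.pow_card_le_prod _ _ _ (fun j _ =>
        (Nat.pow_le_pow_right two_pos (Nat.le_add_right _ _)).trans (h1 _).le)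
    have a3 : P (idx p) * B ≤ 2 ^ (k * k) := (Nat.mul_le_mul_right _ (hle p)).trans hB
    have a4 : (2 ^ (2 * k)) ^ Bd.card < 2 ^ (k * k) := by
      simp only at hx hy
      omega
    rw [← pow_mul, Nat.pow_lt_pow_iff_right one_lt_two, Nat.mul_right_comm] at a4
    have := lt_of_mul_lt_mul_right a4 (Nat.zero_le _)
    omega

theorem main_a (a : ℕ) (ha : 12 ≤ a) : ∃ n ≤ 2 ^ (16 ^ a / a),
    ∀ (f : List Bool → lp (fun _ : ℕ => ℝ) 1) (s D : ℝ), 0 < s →
      (∀ x y : List Bool, x.length = n → y.length = n → x ≠ y →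
        s * (editDist x y : ℝ) ≤ ‖f x - f y‖ ∧ ‖f x - f y‖ ≤ D * s * (editDist x y : ℝ)) →
      Real.exp (4 ^ a / 64) ≤ D := by
  obtain ⟨a', rfl⟩ : ∃ a', a = a' + 4 := ⟨a - 4, by omega⟩
  set a := a' + 4 with hadef
  obtain ⟨t, ht⟩ : ∃ t, t = 2 ^ a' := ⟨_, rfl⟩
  have ht1 : 256 ≤ t := by
    rw [ht]; exact Nat.pow_le_pow_right (n := 2) two_pos (show 8 ≤ a' by omega)
  have hat : a' < t := by rw [ht]; exact Nat.lt_two_pow_self
  obtain ⟨k, hk⟩ : ∃ k, k = 16 * t := ⟨_, rfl⟩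
  have hk2 : k = 2 ^ a := by rw [hk, ht, hadef, pow_add]; ring
  have : NeZero k := ⟨by omega⟩
  obtain ⟨T, hT⟩ : ∃ T, T = t * t := ⟨_, rfl⟩
  have hTt : 256 * t ≤ T := by rw [hT]; exact Nat.mul_le_mul_right _ ht1
  have hkk : k * k = 256 * T := by rw [hk, hT]; ring
  obtain ⟨h, hh⟩ : ∃ h, h = 32 * T / a := ⟨_, rfl⟩
  have hh1 : a * h ≤ 32 * T := by rw [hh]; exact Nat.mul_div_le _ _
  have hh2 : 32 * T < a * h + a := by
    rw [hh]; exact Nat.lt_mul_div_succ _ (by omega)
  have hah : a * h = a' * h + 4 * h := by rw [hadef]; ring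
  have hah2 : 8 * h ≤ a' * h := Nat.mul_le_mul_right _ (by omega)
  obtain ⟨β, hβ⟩ : ∃ β, β + 4 * k = k * k := ⟨k * k - 4 * k, by omega⟩
  obtain ⟨N, hN1, hN2, hN3, hN4⟩ := exists_moduli k (2 ^ β) (by rw [← pow_add, Nat.add_comm, hβ])
  have : ∀ ν, NeZero (N ν) := fun ν => ⟨by have := hN1 ν; omega⟩
  obtain ⟨c, hc1, hc2⟩ := exists_code k (2 ^ (4 * k)) h (4 * k + a * h) (by omega)
    (by rw [pow_add, pow_mul 2 a, ← hk2])
  have hW : 2 * (4 * k + a * h) + 3 ≤ k * k := by omega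
  refine ⟨(2 ^ β * k) ^ h * (2 * (4 * k + a * h) + 3), ?_, fun f s D hs H => ?_⟩
  · have b1 : 2 ^ β * k ≤ 2 ^ (k * k) := by
      rw [← hβ, pow_add]
      exact Nat.mul_le_mul_left _ (Nat.lt_two_pow_self.le.trans
        (Nat.pow_le_pow_right two_pos (by omega)))
    calc _ ≤ (2 ^ (k * k)) ^ h * 2 ^ (k * k) :=
          Nat.mul_le_mul (Nat.pow_le_pow_left b1 _) (hW.trans Nat.lt_two_pow_self.le)
      _ = 2 ^ (k * k * (h + 1)) := by rw [← pow_mul, ← pow_add]; rfl
      _ ≤ _ := Nat.pow_le_pow_right two_pos ?_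
    rw [Nat.le_div_iff_mul_le (by omega)]
    have b2 : 16 ^ a = k * k * (k * k) := by
      rw [hk2, ← mul_pow, ← mul_pow, show 2 * 2 * (2 * 2) = 16 from rfl]
    rw [b2, Nat.mul_assoc]
    refine Nat.mul_le_mul_left _ ?_
    rw [Nat.add_mul, Nat.mul_comm h a]
    omega
  · have hρ : h * (2 * t ^ h * ((2 ^ (4 * k)) ^ t) ^ 2) ≤ 2 ^ β := by
      calc _ ≤ 2 ^ h * (2 * t ^ h * ((2 ^ (4 * k)) ^ t) ^ 2) :=
            Nat.mul_le_mul_right _ Nat.lt_two_pow_self.le
        _ = 2 ^ (h + 1 + a' * h + 128 * T) := by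
            have e1 : t ^ h = 2 ^ (a' * h) := by rw [pow_mul, ← ht]
            have e2 : ((2 ^ (4 * k)) ^ t) ^ 2 = 2 ^ (128 * T) := by
              rw [← pow_mul, ← pow_mul, hk, hT]; congr 1; ring
            rw [e1, e2, pow_add, pow_add, pow_add]; ring
        _ ≤ _ := Nat.pow_le_pow_right two_pos (by omega)
    have hD := core N h (b := 2 ^ β) (t := t) (q := 2 ^ β * (4 * t)) (by omega) (by positivity)
      (by rw [hk]; ring) hN4 hN2 hN3 (by omega) (hN1 _) hρ c hc1 hc2 f s D hs H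
    have b1 : 2 ^ (8 * T) * (32 * (2 * (4 * k + a * h) + 3) * 4 ^ h) ≤ t ^ h := by
      calc _ ≤ 2 ^ (8 * T) * (32 * (k * k) * 4 ^ h) := by gcongr
        _ = 2 ^ (8 * T + 5 + 2 * a + 2 * h) := by
          rw [hk2, pow_add, pow_add, pow_add, pow_mul 2 2 h, two_mul a, pow_add]; ring
        _ ≤ 2 ^ (a' * h) := Nat.pow_le_pow_right two_pos (by omega)
        _ = _ := by rw [pow_mul, ← ht]
    have b2 : (2 : ℝ) ^ (8 * T) * (32 * (2 * ((4 * k + a * h : ℕ) : ℝ) + 3) * 4 ^ h) ≤ (t : ℝ) ^ h := by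
      exact_mod_cast b1
    have b3 : (2 : ℝ) ^ (8 * T) ≤ D := by
      have := b2.trans hD
      rw [mul_comm] at this
      exact le_of_mul_le_mul_left this (by positivity)
    refine le_trans ?_ b3
    have b4 : (4 : ℝ) ^ a / 64 = ((4 * T : ℕ) : ℝ) * 1 := by
      have : (4 : ℕ) ^ a = 256 * T := by rw [← hkk, hk2, ← mul_pow, show 2 * 2 = 4 from rfl]
      have : (4 : ℝ) ^ a = 256 * T := by exact_mod_cast this
      rw [this]; push_cast; ring
    rw [b4, Real.exp_nat_mul, show 8 * T = 2 * (4 * T) by ring, pow_mul 2 2]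
    refine pow_le_pow_left₀ (Real.exp_pos _).le ?_ _
    have := Real.exp_one_lt_d9
    linarith

theorem exists_between_nat (g : ℕ → ℕ) (hg : ∀ a, a < g (a + 1)) (a0 d : ℕ) (hd : g a0 ≤ d) :
    ∃ a, a0 ≤ a ∧ g a ≤ d ∧ d < g (a + 1) := by
  by_contra hc
  push Not at hc
  have : ∀ n, g (a0 + n) ≤ d := by
    intro n
    induction n with
    | zero => exact hd
    | succ n ih => exact hc _ (Nat.le_add_right _ _) ih
  have h1 := this (d + 1)
  have h2 := hg (a0 + d)
  rw [← Nat.add_assoc] at h1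
  omega

theorem lt_g (a : ℕ) : a < 2 ^ (16 ^ (a + 1) / (a + 1)) := by
  refine lt_of_lt_of_le Nat.lt_two_pow_self (Nat.pow_le_pow_right two_pos ?_)
  rw [Nat.le_div_iff_mul_le (by omega)]
  have h : a + 1 ≤ 4 ^ (a + 1) := (Nat.lt_pow_self (by norm_num)).le
  calc a * (a + 1) ≤ 4 ^ (a + 1) * 4 ^ (a + 1) := Nat.mul_le_mul (by omega) h
    _ = _ := by rw [← mul_pow, show 4 * 4 = 16 from rfl]

theorem sqrt_le (a d : ℕ) (h0 : 1 ≤ d) (hd : d < 2 ^ (16 ^ (a + 1) / (a + 1))) :
    Real.sqrt (Real.log d * Real.log (Real.log d)) ≤ 8 * 4 ^ a := by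
  have l2 : Real.log 2 ≤ 1 := by have := Real.log_two_lt_d9; linarith
  have hy0 : 0 ≤ Real.log d := Real.log_natCast_nonneg d
  have hm : ((16 ^ (a + 1) / (a + 1) : ℕ) : ℝ) * (a + 1) ≤ 16 ^ (a + 1) := by
    exact_mod_cast Nat.div_mul_le_self _ _
  have hy : Real.log d ≤ ((16 ^ (a + 1) / (a + 1) : ℕ) : ℝ) := by
    calc Real.log d ≤ Real.log (2 ^ (16 ^ (a + 1) / (a + 1))) :=
          Real.log_le_log (by exact_mod_cast h0) (by exact_mod_cast hd.le)
      _ = _ * Real.log 2 := Real.log_pow _ _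
      _ ≤ _ := mul_le_of_le_one_right (Nat.cast_nonneg _) l2
  generalize ((16 ^ (a + 1) / (a + 1) : ℕ) : ℝ) = m at hm hy
  generalize Real.log d = y at hy hy0
  have ha : (0 : ℝ) ≤ a := Nat.cast_nonneg _
  have hl : Real.log y ≤ 4 * (a + 1) := by
    rcases hy0.eq_or_lt with rfl | hy1
    · simp; positivity
    · calc Real.log y ≤ Real.log (2 ^ (4 * (a + 1))) := Real.log_le_log hy1 (by
            rw [pow_mul]; norm_num only; nlinarith)
        _ = _ * Real.log 2 := Real.log_pow _ _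
        _ ≤ _ := by push_cast; exact mul_le_of_le_one_right (by positivity) l2
  rw [Real.sqrt_le_iff]
  refine ⟨by positivity, ?_⟩
  have e : ((8 : ℝ) * 4 ^ a) ^ 2 = 4 * 16 ^ (a + 1) := by
    rw [mul_pow, ← pow_mul, mul_comm a 2, pow_mul, pow_succ]; norm_num; ring
  rw [e]
  calc y * Real.log y ≤ y * (4 * (a + 1)) := by gcongr
    _ ≤ m * (4 * (a + 1)) := by gcongr
    _ ≤ _ := by linarith

end Crest.Agent.R210
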