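import Crest.Agent.R210.Ed
import Crest.Agent.R210.Comb

/-!
The tree words: every node lists `b` rows of `k` children, driven by cyclic counters.
-/

set_option autoImplicit false
set_option linter.unusedSectionVars false

namespace Crest.Agent.R210

open List

/-- column of a block index -/
def col (k : ℕ) [NeZero k] (i : ℕ) : Fin k := Fin.ofNat k i

theorem col_val (k : ℕ) [NeZero k] (i : ℕ) : (col k i).val = i % k := rfl

theorem col_add (k : ℕ) [NeZero k] (i : ℕ) : col k (k + i) = col k i := by
  ext; simp [col_val]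

variable {k : ℕ} [NeZero k] (b : ℕ) {N : List (Fin k) → ℕ} [∀ ν, NeZero (N ν)]

/-- the word of node `p` of height `ℓ` driven by the counter `m`. -/
def U (off : (ν : List (Fin k)) → ZMod (N ν)) : ℕ → List (Fin k) → ℕ → List (List (Fin k) × ℕ)
  | 0, p, m => [(p, (off p + m).val)]
  | ℓ + 1, p, m => (List.range (b * k)).flatMap
      (fun i => U off ℓ (col k i :: p) ((off p + m).val + N p * (i / k)))

theorem length_U (off : (ν : List (Fin k)) → ZMod (N ν)) (ℓ : ℕ) (p : List (Fin k)) (m : ℕ) :
    (U b off ℓ p m).length = (b * k) ^ ℓ := by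
  induction ℓ generalizing p m with
  | zero => rfl
  | succ ℓ ih =>
    rw [U, length_flatMap_const _ _ ((b * k) ^ ℓ) (fun i _ => ih _ _), List.length_range]
    ring

theorem mem_U {off : (ν : List (Fin k)) → ZMod (N ν)} {ℓ : ℕ} {p : List (Fin k)} {m : ℕ}
    {a : List (Fin k) × ℕ} (h : a ∈ U b off ℓ p m) :
    p <:+ a.1 ∧ a.1.length = p.length + ℓ ∧ a.2 < N a.1 := by
  induction ℓ generalizing p m with
  | zero =>
    obtain rfl : a = (p, (off p + m).val) := by simpa [U] using h
    exact ⟨List.suffix_refl _, rfl, ZMod.val_lt _⟩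
  | succ ℓ ih =>
    rw [U] at h
    obtain ⟨i, -, hi⟩ := List.mem_flatMap.1 h
    obtain ⟨h1, h2, h3⟩ := ih hi
    exact ⟨(List.suffix_cons _ _).trans h1, by simp at h2; omega, h3⟩

theorem U_congr {off off' : (ν : List (Fin k)) → ZMod (N ν)} (ℓ : ℕ) {p : List (Fin k)} {m m' : ℕ}
    (h : ∀ ν, p <:+ ν → ν ≠ p → off ν = off' ν) (hm : off p + m = off' p + m') :
    U b off ℓ p m = U b off' ℓ p m' := by
  induction ℓ generalizing p m m' with
  | zero => simp [U, hm]
  | succ ℓ ih =>
    rw [U, U, hm]
    congr 1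
    funext i
    have key : ∀ ν, (col k i :: p) <:+ ν → off ν = off' ν := by
      intro ν hν
      refine h ν ((List.suffix_cons _ _).trans hν) ?_
      rintro rfl
      simpa using hν.length_le
    exact ih (fun ν hν _ => key ν hν) (by rw [key _ (List.suffix_refl _)])

theorem far_U (hk : 2 ≤ k) {q : ℕ} (hq : b * k = 4 * q)
    (hκ : ∀ (p : List (Fin k)) (x y : ℕ), x ≠ y → x < N p * b → y < N p * b →
      ∃ J ⊆ Finset.range k, k ≤ 2 * J.card ∧ ∀ j ∈ J, (x : ZMod (N (col k j :: p))) ≠ y)
    (off : (ν : List (Fin k)) → ZMod (N ν)) (ℓ : ℕ) (p : List (Fin k)) (m m' : ℕ)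
    (hm : (m : ZMod (N p)) ≠ m') (z : List (List (Fin k) × ℕ)) (h1 : z <+ U b off ℓ p m)
    (h2 : z <+ U b off ℓ p m') : z.length + q ^ ℓ ≤ (b * k) ^ ℓ := by
  have hs : ∀ (p : List (Fin k)) (m m' : ℕ), (m : ZMod (N p)) ≠ m' →
      (off p + m).val ≠ (off p + m').val :=
    fun p m m' hm h => hm (add_left_cancel (ZMod.val_injective _ h))
  induction ℓ generalizing p m m' z with
  | zero =>
    rcases z with _ | ⟨a, z⟩
    · simp
    · have e1 : a = (p, (off p + m).val) := by simpa [U] using h1.subset (List.mem_cons_self)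
      have e2 : a = (p, (off p + m').val) := by simpa [U] using h2.subset (List.mem_cons_self)
      exact absurd (congrArg Prod.snd (e1.symm.trans e2)) (hs p m m' hm)
  | succ ℓ ih =>
    rw [U] at h1 h2
    have hc : ∀ (i m : ℕ), ∀ a ∈ U b off ℓ (col k i :: p) m,
        (a.1.reverse.getD p.length (col k 0)).val = i % k := by
      intro i m a ha
      obtain ⟨r, hr⟩ := (mem_U b ha).1
      rw [← hr]
      simp [col_val]
    have he : q ^ ℓ ≤ (b * k) ^ ℓ := Nat.pow_le_pow_left (by omega) _
    have := far_step k b ((b * k) ^ ℓ) (q ^ ℓ) hk he _ _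
      (fun a => (a.1.reverse.getD p.length (col k 0)).val) (fun i => hc i _) (fun i => hc i _)
      (fun i => length_U b _ _ _ _) (fun i => length_U b _ _ _ _) ?_ z h1 h2
    · rw [pow_succ, pow_succ]
      rw [hq] at this ⊢
      nlinarith
    intro r hr r' hr'
    have hlt : ∀ (m r : ℕ), r < b → (off p + m).val + N p * r < N p * b := by
      intro m r hr
      have h1 := ZMod.val_lt (off p + (m : ZMod (N p)))
      have h2 : N p * (r + 1) ≤ N p * b := Nat.mul_le_mul_left _ hr
      rw [Nat.mul_add] at h2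
      omega
    have hne : (off p + m).val + N p * r ≠ (off p + m').val + N p * r' := by
      intro h
      have := congrArg (· % N p) h
      simp only [Nat.add_mul_mod_self_left] at this
      rw [Nat.mod_eq_of_lt (ZMod.val_lt _), Nat.mod_eq_of_lt (ZMod.val_lt _)] at this
      exact hs p m m' hm this
    obtain ⟨J, hJ, hJc, hJf⟩ := hκ p _ _ hne (hlt m r hr) (hlt m' r' hr')
    refine ⟨J, hJ, hJc, fun j hj w hw hw' => ?_⟩
    have hj' : j < k := Finset.mem_range.1 (hJ hj)
    have e1 : ∀ r, col k (r * k + j) = col k j := fun r => by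
      ext; simp [col_val]
    have e2 : ∀ r, (r * k + j) / k = r := fun r => by
      rw [Nat.add_comm, Nat.add_mul_div_right _ _ (by omega), Nat.div_eq_of_lt hj', Nat.zero_add]
    simp only [e1, e2] at hw hw'
    exact ih _ _ _ (hJf j hj) w hw hw'

theorem sum_col (j0 : Fin k) (C b : ℕ) :
    ((List.range (b * k)).map (fun i => if col k i = j0 then C else 0)).sum = b * C := by
  induction b with
  | zero => simp
  | succ b ih =>
    rw [Nat.add_mul, one_mul, List.range_add, List.map_append, List.sum_append, ih, List.map_map,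
      Nat.add_mul, one_mul, ← List.sum_toFinset _ List.nodup_range, List.toFinset_range,
      Finset.sum_eq_single j0.val]
    · have : col k (b * k + j0.val) = j0 := by
        ext; simp [col_val, Nat.mod_eq_of_lt j0.2]
      simp [this]
    · intro j hj hne
      have : col k (b * k + j) ≠ j0 := by
        intro h
        have := congrArg Fin.val h
        simp [col_val, Nat.mod_eq_of_lt (Finset.mem_range.1 hj)] at this
        exact hne this
      simp [this]
    · intro h
      simp at h

theorem near_global {off off' : (ν : List (Fin k)) → ZMod (N ν)} {μ : List (Fin k)} {ℓ c : ℕ}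
    (h : ∀ ν, ¬ μ <:+ ν → off ν = off' ν)
    (hloc : ∀ m, Near c (U b off ℓ μ m) (U b off' ℓ μ m)) (δ : ℕ) (p : List (Fin k))
    (hp : p <:+ μ) (hδ : μ.length = p.length + δ) (m : ℕ) :
    Near (b ^ δ * c) (U b off (ℓ + δ) p m) (U b off' (ℓ + δ) p m) := by
  induction δ generalizing p m with
  | zero =>
    obtain rfl : p = μ := hp.eq_of_length (by omega)
    simpa using hloc m
  | succ δ ih =>
    obtain ⟨j0, hj0⟩ : ∃ j0, (j0 :: p) <:+ μ := by
      obtain ⟨r, rfl⟩ := hp
      rcases List.eq_nil_or_concat r with rfl | ⟨r', j0, rfl⟩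
      · simp at hδ
      · exact ⟨j0, r', by simp⟩
    have hpp : off p = off' p := h p (fun h' => by have := h'.length_le; omega)
    rw [← Nat.add_assoc, U, U, hpp, pow_succ', Nat.mul_assoc, ← sum_col j0]
    refine Near.flatMap _ (fun i _ => ?_)
    split_ifs with hi
    · rw [hi]
      exact ih _ hj0 (by simp; omega) _
    · have key : ∀ ν, (col k i :: p) <:+ ν → off ν = off' ν := by
        intro ν hν
        refine h ν (fun h' => hi ?_)
        have := List.suffix_of_suffix_length_le hν (hj0.trans h') (by simp)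
        have := this.eq_of_length (by simp)
        simpa using this
      rw [U_congr b _ (fun ν hν _ => key ν hν) (by rw [key _ (List.suffix_refl _)])]
      exact Near.refl _

theorem near_leaf (off off' : (ν : List (Fin k)) → ZMod (N ν)) (μ : List (Fin k)) (m : ℕ) :
    Near 1 (U b off 0 μ m) (U b off' 0 μ m) := (Near.refl []).cons _ _

theorem near_move (hb : 0 < b) {off off' : (ν : List (Fin k)) → ZMod (N ν)} {μ : List (Fin k)}
    (h0 : off' μ = off μ + 1) (h1 : ∀ j, off' (j :: μ) + 1 = off (j :: μ))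
    (h2 : ∀ j ν, (j :: μ) <:+ ν → ν ≠ j :: μ → off ν = off' ν) (ℓ m : ℕ) :
    Near (k * (b * k) ^ ℓ) (U b off (ℓ + 1) μ m) (U b off' (ℓ + 1) μ m) := by
  have key : ∀ j x, U b off ℓ (j :: μ) x = U b off' ℓ (j :: μ) (x + 1) := fun j x =>
    U_congr b ℓ (h2 j) (by rw [← h1]; push_cast; ring)
  have hs : (off' μ + m).val = ((off μ + m).val + 1) % N μ := by
    rw [h0, add_right_comm, ← ZMod.val_natCast]
    simp
  have hlt := ZMod.val_lt (off μ + (m : ZMod (N μ)))
  rw [U, U, hs]
  generalize (off μ + (m : ZMod (N μ))).val = s at hlt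
  simp only [key]
  rcases Nat.lt_or_ge (s + 1) (N μ) with hs | hs
  · rw [Nat.mod_eq_of_lt hs]
    simp only [Nat.add_right_comm s 1]
    exact (Near.refl _).mono (Nat.zero_le _)
  · have hs' : s + 1 = N μ := by omega
    rw [hs', Nat.mod_self]
    obtain ⟨b', rfl⟩ : ∃ b', b = b' + 1 := ⟨b - 1, by omega⟩
    have hk : 0 < k := Nat.pos_of_ne_zero (NeZero.ne k)
    set V : ℕ → List (List (Fin k) × ℕ) := fun i =>
      U (b' + 1) off' ℓ (col k i :: μ) (0 + N μ * (i / k)) with hV
    have e : ∀ i, U (b' + 1) off' ℓ (col k i :: μ) (s + N μ * (i / k) + 1) = V (k + i) := by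
      intro i
      simp only [hV, col_add, Nat.add_div_left _ hk]
      congr 1
      rw [Nat.mul_add]; omega
    simp only [e]
    have hl : ∀ i, (V i).length = ((b' + 1) * k) ^ ℓ := fun i => length_U _ _ _ _ _
    refine ⟨(List.range (b' * k)).flatMap (fun i => V (k + i)), ?_, ?_, ?_, ?_⟩
    · rw [Nat.add_mul, one_mul, List.range_add, List.flatMap_append]
      exact List.sublist_append_left _ _
    · rw [Nat.add_mul, one_mul, Nat.add_comm, List.range_add, List.flatMap_append, List.flatMap_map]
      exact List.sublist_append_right _ _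
    · rw [length_flatMap_const _ _ _ (fun i _ => hl _), length_flatMap_const _ _ _ (fun i _ => hl _)]
      simp [Nat.add_mul]
    · rw [length_flatMap_const _ _ _ (fun i _ => hl _), length_flatMap_const _ _ _ (fun i _ => hl _)]
      simp [Nat.add_mul]

end Crest.Agent.R210
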